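import Vale.Agent.P060.Apex

/-!
P060: dense graphs with independence number at most two have a clique minor of half their order.
-/

namespace P060

open Finset
open scoped Classical

variable {V : Type} [Fintype V]

/-- Half the vertices as parts, for dense graphs without three independent vertices. -/
theorem half_minor (G : SimpleGraph V) (D : ℕ)
    (hdeg : ∀ v, (univ.filter fun u => u ≠ v ∧ ¬G.Adj v u).card ≤ D)
    (hα : ∀ x y z : V, x ≠ y → x ≠ z → y ≠ z → G.Adj x y ∨ G.Adj x z ∨ G.Adj y z)
    (hn : 256 ^ 3 * D ^ 4 ≤ Fintype.card V ^ 3) :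
    ∃ t : ℕ, Fintype.card V ≤ 2 * t ∧ ∃ B : Fin t → Finset V,
      (∀ i, (B i).Nonempty ∧ (G.induce (B i : Set V)).Connected) ∧
      ∀ i j, i ≠ j → Disjoint (B i) (B j) ∧ ∃ u ∈ B i, ∃ v ∈ B j, G.Adj u v := by
  set H : V → V → Prop := fun u v => u ≠ v ∧ ¬G.Adj u v with hH
  have hHi : ∀ a, ¬H a a := fun a h => h.1 rfl
  obtain ⟨M, hM, hmax⟩ := (((univ : Finset (V × V)).powerset.filter (Pairs H))).exists_max_image
    Finset.card ⟨∅, by simp [Pairs]⟩
  simp only [Finset.mem_filter, Finset.mem_powerset, Finset.subset_univ, true_and] at hM hmax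
  by_cases hbig : Fintype.card V ≤ 4 * M.card
  · set e := M.equivFin.symm with he
    have hinj : Function.Injective
        (Sum.elim (fun i => (e i).1.1) fun i => (e i).1.2 : Fin M.card ⊕ Fin M.card → V) := by
      have hkey : ∀ i j, i ≠ j → (e i).1 ≠ (e j).1 := fun i j hij h =>
        hij (e.injective (Subtype.ext h))
      rintro (i | i) (j | j) h <;> simp only [Sum.elim_inl, Sum.elim_inr] at h
      · by_contra hne
        exact (hM.2 _ (e i).2 _ (e j).2 (hkey i j fun h => hne (by rw [h]))).1 h
      · by_cases hij : i = j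
        · subst hij; exact absurd h (hM.1 _ (e i).2).1
        · exact absurd h (hM.2 _ (e i).2 _ (e j).2 (hkey i j hij)).2.1
      · by_cases hij : i = j
        · subst hij; exact absurd h.symm (hM.1 _ (e i).2).1
        · exact absurd h (hM.2 _ (e i).2 _ (e j).2 (hkey i j hij)).2.2.1
      · by_contra hne
        exact (hM.2 _ (e i).2 _ (e j).2 (hkey i j fun h => hne (by rw [h]))).2.2.2 h
    obtain ⟨t, ⟨C⟩, hB⟩ := hadwiger_of_matching G D hdeg
      (Or.inl ⟨M.card, _, _, hinj, fun i => (hM.1 _ (e i).2).2, by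
        have h := hn.trans (Nat.pow_le_pow_left hbig 3)
        refine Nat.le_of_mul_le_mul_right (c := 64) ?_ (by norm_num)
        calc 64 ^ 3 * D ^ 4 * 64 = 256 ^ 3 * D ^ 4 := by ring
          _ ≤ (4 * M.card) ^ 3 := h
          _ = M.card ^ 3 * 64 := by ring⟩)
    refine ⟨t, ?_, hB⟩
    have h2 : ∀ c : Fin t, (univ.filter fun v => C v = c).card ≤ 2 := by
      intro c
      by_contra h
      obtain ⟨x, y, z, hx, hy, hz, hxy, hxz, hyz⟩ := Finset.two_lt_card_iff.1 (lt_of_not_ge h)
      simp only [Finset.mem_filter, Finset.mem_univ, true_and] at hx hy hz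
      rcases hα x y z hxy hxz hyz with a | a | a
      exacts [C.valid a (hx.trans hy.symm), C.valid a (hx.trans hz.symm),
        C.valid a (hy.trans hz.symm)]
    calc Fintype.card V = ∑ c : Fin t, (univ.filter fun v => C v = c).card := by
          rw [← Finset.card_eq_sum_card_fiberwise (fun v _ => Finset.mem_univ _), Finset.card_univ]
      _ ≤ ∑ _c : Fin t, 2 := Finset.sum_le_sum fun c _ => h2 c
      _ = 2 * t := by simp [mul_comm]
  set U := univ \ verts M with hU
  have hUind : ∀ u ∈ U, ∀ v ∈ U, u ≠ v → G.Adj u v := by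
    intro u hu v hv hne
    by_contra hh
    simp only [hU, Finset.mem_sdiff, Finset.mem_univ, true_and] at hu hv
    have := hmax _ (hM.insert' (R := H) ⟨hne, hh⟩ hu hv)
    rw [Finset.card_insert_of_notMem fun h => hu (mem_verts.2 ⟨_, h, Or.inl rfl⟩)] at this
    omega
  refine ⟨U.card, ?_, fun i => {(U.equivFin.symm i).1}, fun i => ⟨Finset.singleton_nonempty _, ?_⟩,
    fun i j hij => ?_⟩
  · have h1 := card_verts hHi hM
    have h2 : U.card + (verts M).card = Fintype.card V := by
      rw [hU, Finset.card_sdiff_add_card_eq_card (Finset.subset_univ _), Finset.card_univ]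
    omega
  · rw [Finset.coe_singleton, SimpleGraph.induce_singleton_eq_top]
    exact SimpleGraph.connected_top
  · have hne : (U.equivFin.symm i).1 ≠ (U.equivFin.symm j).1 := fun h =>
      hij (U.equivFin.symm.injective (Subtype.ext h))
    exact ⟨by simp [hij], _, Finset.mem_singleton_self _, _, Finset.mem_singleton_self _,
      hUind _ (U.equivFin.symm i).2 _ (U.equivFin.symm j).2 hne⟩

end P060
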