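import Vale.Agent.P060.PermLLL

/-!
P060: pairing two sides by a permutation without forbidden cells and without four-cycles.
-/

namespace P060

open Finset
open scoped Classical

variable {V ι : Type} [Fintype V] [Fintype ι]

/-- Common neighbours of two vertices. -/
noncomputable def codeg (H : V → V → Prop) (x y : V) : ℕ :=
  (univ.filter fun z => H x z ∧ H y z).card

theorem codeg_comm (H : V → V → Prop) (x y : V) : codeg H x y = codeg H y x := by
  simp only [codeg, and_comm]

/-- A cell that is not used. -/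
def BadCell (H : V → V → Prop) (s : ℕ) (a b : ι → V) (p : ι × ι) : Prop :=
  H (a p.1) (b p.2) ∨ s ≤ codeg H (a p.1) (b p.2)

/-- Two cells whose pairs see each other nowhere. -/
def Square (H : V → V → Prop) (s : ℕ) (a b : ι → V) (e : Ev ι) : Prop :=
  e.1.1 ≠ e.2.1 ∧ e.1.2 ≠ e.2.2 ∧ ¬BadCell H s a b e.1 ∧ ¬BadCell H s a b e.2 ∧
    H (a e.1.1) (a e.2.1) ∧ H (a e.1.1) (b e.2.2) ∧ H (b e.1.2) (a e.2.1) ∧ H (b e.1.2) (b e.2.2)

theorem codeg_row_sum (H : V → V → Prop) {D : ℕ} (hsym : ∀ x y, H x y → H y x)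
    (hdeg : ∀ x, (univ.filter (H x)).card ≤ D) (b : ι → V) (hb : Function.Injective b) (x : V) :
    ∑ j, codeg H x (b j) ≤ D * D := by
  calc ∑ j, codeg H x (b j)
      = ∑ z ∈ univ.filter (H x), (univ.filter fun j => H (b j) z).card := by
        simp only [codeg, Finset.card_eq_sum_ones, Finset.sum_filter]
        rw [Finset.sum_comm]
        refine Finset.sum_congr rfl fun z _ => ?_
        by_cases h : H x z <;> simp [h]
    _ ≤ ∑ z ∈ univ.filter (H x), D := Finset.sum_le_sum fun z _ =>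
        le_trans (Finset.card_le_card_of_injOn b (fun j hj => by
          simp only [Finset.coe_filter, Finset.mem_univ, true_and, Set.mem_ofPred_eq] at hj ⊢
          exact hsym _ _ hj) hb.injOn) (hdeg z)
    _ ≤ D * D := by
        rw [Finset.sum_const, smul_eq_mul]
        exact Nat.mul_le_mul_right D (hdeg x)

theorem badCell_row (H : V → V → Prop) {D s : ℕ} (hsym : ∀ x y, H x y → H y x)
    (hdeg : ∀ x, (univ.filter (H x)).card ≤ D) (b : ι → V) (hb : Function.Injective b) (x : V) :
    s * (univ.filter fun j => H x (b j) ∨ s ≤ codeg H x (b j)).card ≤ s * D + D * D := by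
  have h1 : (univ.filter fun j => H x (b j)).card ≤ D :=
    le_trans (Finset.card_le_card_of_injOn b (fun j hj => by simpa using hj) hb.injOn) (hdeg x)
  have h2 : s * (univ.filter fun j => s ≤ codeg H x (b j)).card ≤ D * D := by
    rw [mul_comm, ← smul_eq_mul, ← Finset.sum_const]
    exact le_trans (Finset.sum_le_sum fun j hj => (Finset.mem_filter.1 hj).2)
      (le_trans (Finset.sum_le_sum_of_subset (Finset.filter_subset _ _))
        (codeg_row_sum H hsym hdeg b hb x))
  rw [Finset.filter_or]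
  calc s * ((univ.filter fun j => H x (b j)) ∪ univ.filter fun j => s ≤ codeg H x (b j)).card
      ≤ s * ((univ.filter fun j => H x (b j)).card +
          (univ.filter fun j => s ≤ codeg H x (b j)).card) :=
        Nat.mul_le_mul_left s (Finset.card_union_le _ _)
    _ ≤ s * D + D * D := by rw [mul_add]; exact Nat.add_le_add (Nat.mul_le_mul_left s h1) h2

theorem square_cell (H : V → V → Prop) (s : ℕ) (a b : ι → V) (ha : Function.Injective a)
    (hb : Function.Injective b) (p : ι × ι) :
    ((univ.filter (Square H s a b)).filter fun e => e.1 = p).card ≤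
      s * codeg H (a p.1) (b p.2) := by
  by_cases hp : BadCell H s a b p
  · rw [Finset.filter_false_of_mem]
    · simp
    · intro e he h
      exact (Finset.mem_filter.1 he).2.2.2.1 (by rw [h]; exact hp)
  set K := univ.filter fun k => H (a p.1) (a k) ∧ H (b p.2) (a k)
  set L := univ.filter fun l => H (a p.1) (b l) ∧ H (b p.2) (b l)
  have hK : K.card ≤ codeg H (a p.1) (b p.2) :=
    Finset.card_le_card_of_injOn a (fun k hk => by simpa [K] using hk) ha.injOn
  have hL : L.card ≤ codeg H (a p.1) (b p.2) :=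
    Finset.card_le_card_of_injOn b (fun k hk => by simpa [L] using hk) hb.injOn
  have hs : codeg H (a p.1) (b p.2) ≤ s := by
    simp only [BadCell, not_or, not_le] at hp
    omega
  calc _ ≤ (K ×ˢ L).card := by
        refine Finset.card_le_card_of_injOn Prod.snd (fun e he => ?_) (fun e he f hf h => ?_)
        · simp only [Finset.coe_filter, Finset.mem_filter, Finset.mem_univ, true_and,
            Set.mem_ofPred_eq, Square] at he
          obtain ⟨⟨-, -, -, -, h1, h2, h3, h4⟩, rfl⟩ := he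
          simp [K, L, h1, h2, h3, h4]
        · simp only [Finset.coe_filter, Finset.mem_filter, Set.mem_ofPred_eq] at he hf
          exact Prod.ext (he.2.trans hf.2.symm) h
    _ ≤ s * codeg H (a p.1) (b p.2) := by
        rw [Finset.card_product]
        exact Nat.mul_le_mul (hK.trans hs) hL

/-- A pairing of the two sides. -/
theorem exists_pairing (H : V → V → Prop) (hsym : ∀ x y, H x y → H y x) (D : ℕ)
    (hdeg : ∀ x, (univ.filter (H x)).card ≤ D) (a b : ι → V) (ha : Function.Injective a)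
    (hb : Function.Injective b) (hν : 64 ^ 3 * D ^ 4 ≤ Fintype.card ι ^ 3)
    (hD : 1 ≤ D) :
    ∃ σ : Equiv.Perm ι, (∀ i, ¬H (a i) (b (σ i))) ∧
      ∀ i k, i ≠ k → ¬(H (a i) (a k) ∧ H (a i) (b (σ k)) ∧ H (b (σ i)) (a k) ∧
        H (b (σ i)) (b (σ k))) := by
  set ν := Fintype.card ι with hνdef
  have h64 : 64 * D ≤ ν := by
    by_contra h
    have h1 := Nat.pow_lt_pow_left (lt_of_not_ge h) (show 3 ≠ 0 by omega)
    have h2 : (64 * D) ^ 3 ≤ 64 ^ 3 * D ^ 4 := by
      rw [mul_pow]; exact Nat.mul_le_mul_left _ (Nat.pow_le_pow_right hD (by omega))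
    omega
  set s := 64 * D ^ 2 / ν + 1 with hs
  have hν0 : 0 < ν := by omega
  have hs1 : 64 * D ^ 2 ≤ s * ν := by
    have := Nat.lt_mul_div_succ (64 * D ^ 2) hν0
    rw [mul_comm s]; exact this.le
  have hs2 : 128 * (s * D ^ 2) ≤ ν * ν := by
    refine Nat.le_of_mul_le_mul_right ?_ hν0
    have h1 : 64 * D ^ 2 / ν * ν ≤ 64 * D ^ 2 := Nat.div_mul_le_self _ _
    calc 128 * (s * D ^ 2) * ν = 128 * D ^ 2 * (64 * D ^ 2 / ν * ν) + 128 * D ^ 2 * ν := by
          rw [hs]; ring
      _ ≤ 128 * D ^ 2 * (64 * D ^ 2) + 128 * D ^ 2 * ν :=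
          Nat.add_le_add_right (Nat.mul_le_mul_left _ h1) _
      _ ≤ ν * ν * ν := by
          have h3 := Nat.mul_le_mul h64 h64
          have h4 := Nat.mul_le_mul_right ν h3
          nlinarith
  -- bad cells of one line
  have hcell : ∀ (c d : ι → V), Function.Injective d → ∀ i,
      32 * (univ.filter fun j => H (c i) (d j) ∨ s ≤ codeg H (c i) (d j)).card ≤ ν := by
    intro c d hd i
    refine Nat.le_of_mul_le_mul_left ?_ (show 0 < s by rw [hs]; exact Nat.succ_pos _)
    have h1 := badCell_row H (s := s) hsym hdeg d hd (c i)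
    have h2 : 64 * (s * D) ≤ s * ν := by
      rw [show 64 * (s * D) = s * (64 * D) by ring]; exact Nat.mul_le_mul_left s h64
    calc s * (32 * (univ.filter fun j => H (c i) (d j) ∨ s ≤ codeg H (c i) (d j)).card)
        = 32 * (s * (univ.filter fun j => H (c i) (d j) ∨ s ≤ codeg H (c i) (d j)).card) := by ring
      _ ≤ 32 * (s * D + D * D) := Nat.mul_le_mul_left 32 h1
      _ ≤ s * ν := by rw [← sq]; linarith
  set E₁ := ((univ : Finset (ι × ι)).filter (BadCell H s a b)).image fun p => (p, p) with hE₁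
  set E₂ := (univ : Finset (Ev ι)).filter (Square H s a b) with hE₂
  set E := E₁ ∪ E₂ with hE
  have hinj : Function.Injective fun p : ι × ι => (p, p) := fun p q h => (Prod.mk.inj h).1
  have hw : ∀ p : ι × ι, wt (p, p) = ν - 1 := fun p => by simp [wt, hνdef]
  have hw2 : ∀ e ∈ E₂, wt e = 1 := fun e he => by
    have : e.1 ≠ e.2 := fun h => (Finset.mem_filter.1 he).2.1 (by rw [h])
    simp [wt, this]
  have hswap : ∀ e ∈ E₂, e.swap ∈ E₂ := by
    intro e he
    obtain ⟨h1, h2, h3, h4, h5, h6, h7, h8⟩ := (Finset.mem_filter.1 he).2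
    exact Finset.mem_filter.2 ⟨Finset.mem_univ _, Ne.symm h1, Ne.symm h2, h4, h3, hsym _ _ h5,
      hsym _ _ h7, hsym _ _ h6, hsym _ _ h8⟩
  -- load of one line `L` (a row or a column)
  have hline : ∀ (line : ι × ι → ι) (i : ι),
      (∃ (c d : ι → V), Function.Injective d ∧ ∃ g : ι → ι × ι,
        (∀ p, line p = i → ∃ j, g j = p) ∧
        (∀ j, (BadCell H s a b (g j) ↔ H (c i) (d j) ∨ s ≤ codeg H (c i) (d j))) ∧
        ∀ j, codeg H (a (g j).1) (b (g j).2) = codeg H (c i) (d j)) →
      32 * ∑ f ∈ E.filter (fun f => line f.1 = i ∨ line f.2 = i), wt f ≤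
        (ν - 1) * ν + 64 * (s * (s * 0 + D ^ 2)) := by
    rintro line i ⟨c, d, hd, g, hg, hgbad, hgcd⟩
    rw [hE, Finset.filter_union]
    refine le_trans (Nat.mul_le_mul_left 32 (le_trans (le_of_eq (Finset.sum_union ?_)) le_rfl)) ?_
    · refine Finset.disjoint_left.2 fun f hf hf2 => ?_
      obtain ⟨p, -, rfl⟩ := Finset.mem_image.1 (Finset.mem_filter.1 hf).1
      exact (Finset.mem_filter.1 (Finset.mem_filter.1 hf2).1).2.1 rfl
    rw [mul_add]
    refine Nat.add_le_add ?_ ?_
    · have hsub : E₁.filter (fun f => line f.1 = i ∨ line f.2 = i) ⊆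
          (univ.filter fun j => H (c i) (d j) ∨ s ≤ codeg H (c i) (d j)).image
            fun j => (g j, g j) := by
        intro f hf
        obtain ⟨hf1, hf2⟩ := Finset.mem_filter.1 hf
        obtain ⟨p, hp, rfl⟩ := Finset.mem_image.1 hf1
        obtain ⟨j, rfl⟩ := hg p (hf2.elim id id)
        exact Finset.mem_image.2 ⟨j, Finset.mem_filter.2
          ⟨Finset.mem_univ _, (hgbad j).1 (Finset.mem_filter.1 hp).2⟩, rfl⟩
      have hc := (Finset.card_le_card hsub).trans Finset.card_image_le
      have hcl := hcell c d hd i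
      rw [Finset.sum_eq_card_nsmul (b := ν - 1), smul_eq_mul]
      · calc 32 * (_ * (ν - 1)) = (ν - 1) * (32 * _) := by ring
          _ ≤ (ν - 1) * ν := Nat.mul_le_mul_left _ (le_trans (Nat.mul_le_mul_left 32 hc) hcl)
      · intro f hf
        obtain ⟨p, -, rfl⟩ := Finset.mem_image.1 (Finset.mem_filter.1 hf).1
        exact hw p
    · rw [Finset.sum_eq_card_nsmul (b := 1) fun f hf => hw2 f (Finset.mem_filter.1 hf).1,
        smul_eq_mul, mul_one, mul_zero, zero_add, Finset.filter_or]
      have hone : (E₂.filter fun f => line f.1 = i).card ≤ s * D ^ 2 := by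
        have hsub : E₂.filter (fun f => line f.1 = i) ⊆
            (univ : Finset ι).biUnion fun j => E₂.filter fun f => f.1 = g j := fun f hf => by
          obtain ⟨hf1, hf2⟩ := Finset.mem_filter.1 hf
          obtain ⟨j, hj⟩ := hg f.1 hf2
          exact Finset.mem_biUnion.2 ⟨j, Finset.mem_univ _, Finset.mem_filter.2 ⟨hf1, hj.symm⟩⟩
        refine (Finset.card_le_card hsub).trans (Finset.card_biUnion_le.trans ?_)
        refine (Finset.sum_le_sum fun j _ => square_cell H s a b ha hb (g j)).trans ?_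
        rw [← Finset.mul_sum, sq]
        simp only [hgcd]
        exact Nat.mul_le_mul_left s (codeg_row_sum H hsym hdeg d hd (c i))
      have htwo : (E₂.filter fun f => line f.2 = i).card ≤ s * D ^ 2 := by
        refine le_trans (Finset.card_le_card_of_injOn Prod.swap (fun f hf => ?_)
          Prod.swap_injective.injOn) hone
        simp only [Finset.coe_filter, Set.mem_ofPred_eq] at hf ⊢
        exact ⟨hswap f hf.1, hf.2⟩
      refine le_trans (Nat.mul_le_mul_left 32 (Finset.card_union_le _ _)) ?_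
      linarith
  have hrow : ∀ i, 32 * ∑ f ∈ E.filter (fun f => f.1.1 = i ∨ f.2.1 = i), wt f ≤
      (ν - 1) * ν + 64 * (s * D ^ 2) := fun i => by
    simpa using hline Prod.fst i ⟨a, b, hb, fun j => (i, j), fun p hp => ⟨p.2, by rw [← hp]⟩,
      fun j => Iff.rfl, fun j => rfl⟩
  have hcol : ∀ i, 32 * ∑ f ∈ E.filter (fun f => f.1.2 = i ∨ f.2.2 = i), wt f ≤
      (ν - 1) * ν + 64 * (s * D ^ 2) := fun i => by
    simpa using hline Prod.snd i ⟨b, a, ha, fun j => (j, i), fun p hp => ⟨p.1, by rw [← hp]⟩,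
      fun j => by
        simp only [BadCell]
        rw [codeg_comm H (a j)]
        exact ⟨Or.imp_left (hsym _ _), Or.imp_left (hsym _ _)⟩,
      fun j => codeg_comm H _ _⟩
  refine (exists_avoid E ?_ ?_ ?_).elim fun σ hσ => ?_
  · intro e he
    rcases Finset.mem_union.1 he with he | he
    · obtain ⟨p, -, rfl⟩ := Finset.mem_image.1 he
      exact Or.inl rfl
    · exact Or.inr ⟨(Finset.mem_filter.1 he).2.1, (Finset.mem_filter.1 he).2.2.1⟩
  · intro e _
    set R := fun i => E.filter fun f => f.1.1 = i ∨ f.2.1 = i with hR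
    set C := fun i => E.filter fun f => f.1.2 = i ∨ f.2.2 = i with hC
    have hsub : E.filter (Clash e) ⊆ (R e.1.1 ∪ R e.2.1) ∪ (C e.1.2 ∪ C e.2.2) := by
      intro f hf
      obtain ⟨hf1, hf2⟩ := Finset.mem_filter.1 hf
      simp only [hR, hC, Finset.mem_union, Finset.mem_filter, hf1, true_and, Clash] at hf2 ⊢
      tauto
    have h1 := Finset.sum_le_sum_of_subset (f := wt) hsub
    have h2 : ∀ A B : Finset (Ev ι), ∑ f ∈ A ∪ B, wt f ≤ ∑ f ∈ A, wt f + ∑ f ∈ B, wt f :=
      fun A B => by rw [← Finset.sum_union_inter]; exact Nat.le_add_right _ _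
    have h3 := (h2 (R e.1.1 ∪ R e.2.1) (C e.1.2 ∪ C e.2.2))
    have h4 := h2 (R e.1.1) (R e.2.1)
    have h5 := h2 (C e.1.2) (C e.2.2)
    have r1 := hrow e.1.1; have r2 := hrow e.2.1; have c1 := hcol e.1.2; have c2 := hcol e.2.2
    have hP : ν * ν ≤ 2 * (ν * (ν - 1)) := by
      obtain ⟨m, hm⟩ : ∃ m, ν = m + 2 := ⟨ν - 2, by omega⟩
      rw [hm]; simp only [show m + 2 - 1 = m + 1 by omega]; nlinarith
    rw [mul_comm (ν - 1)] at r1 r2 c1 c2
    linarith
  · intro e he
    rw [← hνdef]
    have : wt e ≤ ν - 1 := by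
      unfold wt
      split_ifs <;> omega
    have h3 : 3 * (ν - 1) ≤ ν * (ν - 1) := Nat.mul_le_mul_right _ (by omega)
    omega
  · refine ⟨σ, fun i hi => ?_, fun i k hik hh => ?_⟩
    · exact hσ ((i, σ i), (i, σ i)) (Finset.mem_union_left _ (Finset.mem_image.2
        ⟨(i, σ i), Finset.mem_filter.2 ⟨Finset.mem_univ _, Or.inl hi⟩, rfl⟩)) ⟨rfl, rfl⟩
    · have hbad : ∀ r, ¬BadCell H s a b (r, σ r) := fun r hr =>
        hσ ((r, σ r), (r, σ r)) (Finset.mem_union_left _ (Finset.mem_image.2
          ⟨(r, σ r), Finset.mem_filter.2 ⟨Finset.mem_univ _, hr⟩, rfl⟩)) ⟨rfl, rfl⟩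
      exact hσ ((i, σ i), (k, σ k)) (Finset.mem_union_right _ (Finset.mem_filter.2
        ⟨Finset.mem_univ _, hik, σ.injective.ne hik, hbad i, hbad k, hh⟩)) ⟨rfl, rfl⟩

end P060
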