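import Vale.Agent.P060.Dense
import Vale.Agent.P060.Matching

/-!
P060: graphs with a moderately large matching of non-edges, apexes of triangles absorbed.
-/

namespace P060

open Finset
open scoped Classical

variable {V : Type} [Fintype V]

/-- The two ways out of a matched pair lead to one vertex. -/
theorem aug_eq {R : V → V → Prop} (hR : ∀ a, ¬R a a) {M : Finset (V × V)} (hM : Pairs R M)
    (hmax : ∀ M' : Finset (V × V), Pairs R M' → M'.card ≤ M.card) {p : V × V} (hp : p ∈ M)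
    {x y : V} (hx : x ∉ verts M) (hy : y ∉ verts M) (hxp : R x p.1) (hyp : R y p.2) : x = y := by
  by_contra hxy
  have hM0 : Pairs R (M.erase p) := hM.mono (Finset.erase_subset _ _)
  have hout : ∀ v, v ∉ verts M → v ∉ verts (M.erase p) := fun v hv h => by
    obtain ⟨q, hq, e⟩ := mem_verts.1 h
    exact hv (mem_verts.2 ⟨q, Finset.mem_of_mem_erase hq, e⟩)
  have hp1 : p.1 ∉ verts (M.erase p) := fun h => by
    obtain ⟨q, hq, e⟩ := mem_verts.1 h
    obtain ⟨hqp, hq⟩ := Finset.mem_erase.1 hq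
    exact e.elim (hM.2 q hq p hp hqp).1 (hM.2 q hq p hp hqp).2.2.1
  have hp2 : p.2 ∉ verts (M.erase p) := fun h => by
    obtain ⟨q, hq, e⟩ := mem_verts.1 h
    obtain ⟨hqp, hq⟩ := Finset.mem_erase.1 hq
    exact e.elim (hM.2 q hq p hp hqp).2.1 (hM.2 q hq p hp hqp).2.2.2
  have hv : p.1 ∈ verts M ∧ p.2 ∈ verts M :=
    ⟨mem_verts.2 ⟨p, hp, Or.inl rfl⟩, mem_verts.2 ⟨p, hp, Or.inr rfl⟩⟩
  have hpne : p.1 ≠ p.2 := fun e => hR p.1 (by have := hM.1 p hp; rwa [← e] at this)
  have hM1 := hM0.insert' hxp (hout x hx) hp1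
  have hkeep : ∀ v, v ∉ verts (M.erase p) → v ≠ x → v ≠ p.1 →
      v ∉ verts (insert (x, p.1) (M.erase p)) := by
    intro v hv h1 h2 h
    obtain ⟨q, hq, e⟩ := mem_verts.1 h
    rcases Finset.mem_insert.1 hq with rfl | hq
    · exact e.elim (fun e => h1 e.symm) (fun e => h2 e.symm)
    · exact hv (mem_verts.2 ⟨q, hq, e⟩)
  have hy1 := hkeep y (hout y hy) (Ne.symm hxy) (fun e => hy (e ▸ hv.1))
  have hM2 := hM1.insert' hyp hy1 (hkeep p.2 hp2 (fun e => hx (e ▸ hv.2)) hpne.symm)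
  have := hmax _ hM2
  rw [Finset.card_insert_of_notMem (fun h => hy1 (mem_verts.2 ⟨_, h, Or.inl rfl⟩)),
    Finset.card_insert_of_notMem (fun h => hout x hx (mem_verts.2 ⟨_, h, Or.inl rfl⟩)),
    Finset.card_erase_of_mem hp] at this
  have := Finset.card_pos.2 ⟨p, hp⟩
  omega

/-- A clique minor on as many parts as colours, from a maximum matching of non-edges. -/
theorem hadwiger_of_matching (G : SimpleGraph V) (D : ℕ)
    (hdeg : ∀ v, (univ.filter fun u => u ≠ v ∧ ¬G.Adj v u).card ≤ D)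
    (h : (∃ (k : ℕ) (a b : Fin k → V), Function.Injective (Sum.elim a b) ∧
        (∀ i, ¬G.Adj (a i) (b i)) ∧ 64 ^ 3 * D ^ 4 ≤ k ^ 3) ∨
      ((∀ v, ∃ u, u ≠ v ∧ ¬G.Adj v u) ∧ 256 ^ 3 * D ^ 7 ≤ Fintype.card V ^ 3) ∨
      ((∀ v, D ≤ 2 * (univ.filter fun u => u ≠ v ∧ ¬G.Adj v u).card) ∧
        512 ^ 3 * D ^ 4 ≤ Fintype.card V ^ 3)) :
    ∃ t : ℕ, G.Colorable t ∧ ∃ B : Fin t → Finset V,
      (∀ i, (B i).Nonempty ∧ (G.induce (B i : Set V)).Connected) ∧
      ∀ i j, i ≠ j → Disjoint (B i) (B j) ∧ ∃ u ∈ B i, ∃ v ∈ B j, G.Adj u v := by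
  set H : V → V → Prop := fun u v => u ≠ v ∧ ¬G.Adj u v with hH
  have hHi : ∀ a, ¬H a a := fun a h => h.1 rfl
  have hHs : ∀ u v, H u v → H v u := fun u v h => ⟨h.1.symm, fun e => h.2 e.symm⟩
  have hGH : ∀ {u v}, u ≠ v → ¬H u v → G.Adj u v := fun hne h => by_contra fun e => h ⟨hne, e⟩
  have hNeq : ∀ v, (univ.filter fun u => u ≠ v ∧ ¬G.Adj v u) = univ.filter (H v) := fun v => by
    ext u; simp [hH, ne_comm]
  have hN : ∀ v, (univ.filter (H v)).card ≤ D := fun v => hNeq v ▸ hdeg v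
  obtain ⟨M, hM, hmax⟩ := (((univ : Finset (V × V)).powerset.filter (Pairs H))).exists_max_image
    Finset.card ⟨∅, by simp [Pairs]⟩
  simp only [Finset.mem_filter, Finset.mem_powerset, Finset.subset_univ, true_and] at hM hmax
  set U := univ \ verts M with hU
  have hUmem : ∀ v, v ∈ U ↔ v ∉ verts M := fun v => by simp [hU]
  have hUind : ∀ u ∈ U, ∀ v ∈ U, ¬H u v := by
    intro u hu v hv hh
    rw [hUmem] at hu hv
    have := hmax _ (hM.insert' hh hu hv)
    rw [Finset.card_insert_of_notMem fun h => hu (mem_verts.2 ⟨_, h, Or.inl rfl⟩)] at this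
    omega
  have hverts := card_verts hHi hM
  have hUc : U.card + 2 * M.card = Fintype.card V := by
    rw [hU, Finset.card_sdiff_of_subset (Finset.subset_univ _), hverts, Finset.card_univ]
    have := Finset.card_le_univ (verts M)
    omega
  have hedge : ∀ u ∈ U, univ.filter (H u) ⊆ verts M := fun u hu v hv => by_contra fun h =>
    hUind u hu v ((hUmem v).2 h) (Finset.mem_filter.1 hv).2
  have hnu : 64 ^ 3 * D ^ 4 ≤ M.card ^ 3 := by
    rcases Nat.eq_zero_or_pos D with rfl | hD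
    · simp
    rcases h with ⟨k, a, b, hinj, hab, hk⟩ | ⟨hno, hn⟩ | ⟨hhalf, hn⟩
    · refine hk.trans (Nat.pow_le_pow_left ?_ 3)
      have hne : ∀ i j, a i ≠ b j := fun i j e => by
        have := @hinj (Sum.inl i) (Sum.inr j) e
        simp at this
      set f : Fin k → V × V := fun i => (a i, b i) with hf
      have hfi : Function.Injective f := fun i j e => by
        have := @hinj (Sum.inl i) (Sum.inl j) (congrArg Prod.fst e)
        simpa using this
      have hP : Pairs H (univ.image f) := by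
        refine ⟨fun p hp => ?_, fun p hp q hq hpq => ?_⟩
        · obtain ⟨i, -, rfl⟩ := Finset.mem_image.1 hp
          exact ⟨hne i i, hab i⟩
        · obtain ⟨i, -, rfl⟩ := Finset.mem_image.1 hp
          obtain ⟨j, -, rfl⟩ := Finset.mem_image.1 hq
          refine ⟨fun e => hpq ?_, hne i j, fun e => hne j i e.symm, fun e => hpq ?_⟩
          · rw [show i = j by simpa using @hinj (Sum.inl i) (Sum.inl j) e]
          · rw [show i = j by simpa using @hinj (Sum.inr i) (Sum.inr j) e]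
      have := hmax _ hP
      rwa [Finset.card_image_of_injective _ hfi, Finset.card_univ, Fintype.card_fin] at this
    · have hUN : U ⊆ (verts M).biUnion fun v => univ.filter (H v) := fun u hu => by
        obtain ⟨v, hne, hv⟩ := hno u
        have hh : H u v := ⟨hne.symm, hv⟩
        exact Finset.mem_biUnion.2 ⟨v, hedge u hu (by simp [hh]), by simp [hHs _ _ hh]⟩
      have h1 := (Finset.card_le_card hUN).trans
        (Finset.card_biUnion_le_card_mul _ _ D fun v _ => hN v)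
      rw [hverts] at h1
      have h2 : Fintype.card V ≤ 4 * (M.card * D) := by nlinarith
      have h3 := hn.trans (Nat.pow_le_pow_left h2 3)
      refine Nat.le_of_mul_le_mul_right (c := 64 * D ^ 3) ?_ (by positivity)
      calc 64 ^ 3 * D ^ 4 * (64 * D ^ 3) = 256 ^ 3 * D ^ 7 := by ring
        _ ≤ (4 * (M.card * D)) ^ 3 := h3
        _ = M.card ^ 3 * (64 * D ^ 3) := by ring
    · have hsum : U.card * D ≤ 2 * ∑ v ∈ verts M, (univ.filter (H v)).card := by
        rw [← smul_eq_mul, ← Finset.sum_const]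
        refine le_trans (Finset.sum_le_sum fun u _ => (hNeq u ▸ hhalf u)) ?_
        rw [← Finset.mul_sum]
        refine Nat.mul_le_mul_left 2 ?_
        calc ∑ u ∈ U, (univ.filter (H u)).card
            = ∑ u ∈ U, ((verts M).filter (H u)).card := Finset.sum_congr rfl fun u hu => by
              congr 1; ext v
              simp only [Finset.mem_filter, Finset.mem_univ, true_and]
              exact ⟨fun h => ⟨hedge u hu (by simp [h]), h⟩, fun h => h.2⟩
          _ ≤ ∑ v ∈ verts M, (univ.filter (H v)).card := by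
              simp only [Finset.card_eq_sum_ones, Finset.sum_filter]
              rw [Finset.sum_comm]
              refine Finset.sum_le_sum fun v _ => ?_
              refine le_trans (Finset.sum_le_sum_of_subset (Finset.subset_univ U)) ?_
              exact le_of_eq (Finset.sum_congr rfl fun u _ =>
                if_congr ⟨hHs u v, hHs v u⟩ rfl rfl)
      have h1 : ∑ v ∈ verts M, (univ.filter (H v)).card ≤ (verts M).card * D := by
        rw [← smul_eq_mul, ← Finset.sum_const]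
        exact Finset.sum_le_sum fun v _ => hN v
      rw [hverts] at h1
      have h2 : U.card ≤ 4 * M.card := Nat.le_of_mul_le_mul_right (by linarith) hD
      have h3 : Fintype.card V ≤ 8 * M.card := by omega
      have h4 := hn.trans (Nat.pow_le_pow_left h3 3)
      refine Nat.le_of_mul_le_mul_right (c := 512) ?_ (by norm_num)
      calc 64 ^ 3 * D ^ 4 * 512 = 512 ^ 3 * D ^ 4 := by ring
        _ ≤ (8 * M.card) ^ 3 := h4
        _ = M.card ^ 3 * 512 := by ring
  -- apexes and the orientation of the pairs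
  set X := U.filter fun x => ∃ p ∈ M, H x p.1 ∧ H x p.2 with hX
  set U' := U \ X with hU'
  set hd : {p // p ∈ M} → V := fun p => if ∃ x ∈ U', H x p.1.2 then p.1.2 else p.1.1 with hhd
  set tl : {p // p ∈ M} → V := fun p => if ∃ x ∈ U', H x p.1.2 then p.1.1 else p.1.2 with htl
  have haug : ∀ p ∈ M, ∀ x ∈ U, ∀ y ∈ U, H x p.1 → H y p.2 → x = y :=
    fun p hp x hx y hy => aug_eq hHi hM hmax hp ((hUmem x).1 hx) ((hUmem y).1 hy)
  have htail : ∀ p, ∀ x ∈ U', ¬H x (tl p) := by
    intro p x hx hxp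
    simp only [htl] at hxp
    split_ifs at hxp with hc
    · obtain ⟨y, hy, hyp⟩ := hc
      obtain ⟨hxU, hxX⟩ := Finset.mem_sdiff.1 hx
      obtain rfl := haug _ p.2 x hxU y (Finset.mem_sdiff.1 hy).1 hxp hyp
      exact hxX (Finset.mem_filter.2 ⟨hxU, _, p.2, hxp, hyp⟩)
    · exact hc ⟨x, hx, hxp⟩
  have hends : ∀ p : {p // p ∈ M}, (hd p = p.1.1 ∧ tl p = p.1.2) ∨ (hd p = p.1.2 ∧ tl p = p.1.1) :=
    fun p => by simp only [hhd, htl]; split_ifs <;> simp
  have hpne : ∀ p : {p // p ∈ M}, p.1.1 ≠ p.1.2 := fun p => (hM.1 _ p.2).1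
  have hdist : ∀ p q : {p // p ∈ M}, p ≠ q →
      hd p ≠ hd q ∧ hd p ≠ tl q ∧ tl p ≠ hd q ∧ tl p ≠ tl q := by
    intro p q hpq
    obtain ⟨d1, d2, d3, d4⟩ := hM.2 _ p.2 _ q.2 (fun e => hpq (Subtype.ext e))
    rcases hends p with ⟨e1, e2⟩ | ⟨e1, e2⟩ <;> rcases hends q with ⟨e3, e4⟩ | ⟨e3, e4⟩ <;>
      simp [e1, e2, e3, e4, d1, d2, d3, d4]
  have hself : ∀ p, hd p ≠ tl p := fun p => by
    rcases hends p with ⟨e1, e2⟩ | ⟨e1, e2⟩ <;> simp [e1, e2, hpne p, (hpne p).symm]
  have hhdtl : ∀ p q, hd p ≠ tl q := fun p q => by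
    by_cases h : p = q
    · exact h ▸ hself p
    · exact (hdist p q h).2.1
  have hinj1 : Function.Injective hd := fun p q e => by_contra fun h => (hdist p q h).1 e
  have hinj2 : Function.Injective tl := fun p q e => by_contra fun h => (hdist p q h).2.2.2 e
  have hmemv : ∀ p, hd p ∈ verts M ∧ tl p ∈ verts M := fun p => by
    rcases hends p with ⟨e1, e2⟩ | ⟨e1, e2⟩ <;> rw [e1, e2]
    exacts [⟨mem_verts.2 ⟨_, p.2, Or.inl rfl⟩, mem_verts.2 ⟨_, p.2, Or.inr rfl⟩⟩,
      ⟨mem_verts.2 ⟨_, p.2, Or.inr rfl⟩, mem_verts.2 ⟨_, p.2, Or.inl rfl⟩⟩]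
  obtain ⟨σ, hσ1, hσ2⟩ : ∃ σ : Equiv.Perm {p // p ∈ M}, (∀ i, ¬H (hd i) (tl (σ i))) ∧
      ∀ i k, i ≠ k → ¬(H (hd i) (hd k) ∧ H (hd i) (tl (σ k)) ∧ H (tl (σ i)) (hd k) ∧
        H (tl (σ i)) (tl (σ k))) := by
    rcases Nat.eq_zero_or_pos D with hD | hD
    · have hno : ∀ u v, ¬H u v := fun u v huv => by
        have := Finset.card_pos.2 ⟨v, Finset.mem_filter.2 ⟨Finset.mem_univ v, huv⟩⟩
        have := hN u
        omega
      exact ⟨1, fun i => hno _ _, fun i k _ hh => hno _ _ hh.1⟩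
    · exact exists_pairing H hHs D (fun x => by convert hN x) hd tl hinj1 hinj2 (by rwa [Fintype.card_coe]) hD
  refine ⟨U'.card + M.card, ?_, ?_⟩
  · -- colour classes: the pairs with their apexes
    have hrep : ∀ v, ∃ r ∈ U' ∪ M.image Prod.fst, (r = v ∧ v ∈ U') ∨
        ∃ p ∈ M, p.1 = r ∧ (v = p.1 ∨ v = p.2 ∨ (v ∈ U ∧ H v p.1 ∧ H v p.2)) := by
      intro v
      by_cases hv : v ∈ verts M
      · obtain ⟨p, hp, e⟩ := mem_verts.1 hv
        exact ⟨p.1, Finset.mem_union_right _ (Finset.mem_image_of_mem _ hp), Or.inr ⟨p, hp, rfl,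
          e.elim (fun e => Or.inl e.symm) (fun e => Or.inr (Or.inl e.symm))⟩⟩
      by_cases hx : v ∈ X
      · obtain ⟨hvU, p, hp, h1, h2⟩ := Finset.mem_filter.1 hx
        exact ⟨p.1, Finset.mem_union_right _ (Finset.mem_image_of_mem _ hp),
          Or.inr ⟨p, hp, rfl, Or.inr (Or.inr ⟨hvU, h1, h2⟩)⟩⟩
      · have : v ∈ U' := Finset.mem_sdiff.2 ⟨(hUmem v).2 hv, hx⟩
        exact ⟨v, Finset.mem_union_left _ this, Or.inl ⟨rfl, this⟩⟩
    choose col hcol hspec using hrep
    let C : G.Coloring {x // x ∈ U' ∪ M.image Prod.fst} :=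
      SimpleGraph.Coloring.mk (fun v => ⟨col v, hcol v⟩) (fun {u v} huv e => by
        have e' : col u = col v := congrArg Subtype.val e
        have hnH : ¬H u v := fun h => h.2 huv
        have hne := huv.ne
        rcases hspec u with ⟨u1, u2⟩ | ⟨p, hp, p1, pu⟩ <;>
          rcases hspec v with ⟨v1, v2⟩ | ⟨q, hq, q1, qv⟩
        · exact hne (by rw [← u1, ← v1, e'])
        · refine (hUmem u).1 (Finset.mem_sdiff.1 u2).1 (mem_verts.2 ⟨q, hq, Or.inl ?_⟩)
          rw [q1, ← e', u1]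
        · refine (hUmem v).1 (Finset.mem_sdiff.1 v2).1 (mem_verts.2 ⟨p, hp, Or.inl ?_⟩)
          rw [p1, e', v1]
        · obtain rfl : p = q := by_contra fun h => (hM.2 p hp q hq h).1 (by rw [p1, q1, e'])
          rcases pu with rfl | rfl | ⟨uU, uh1, uh2⟩ <;> rcases qv with rfl | rfl | ⟨vU, vh1, vh2⟩
          · exact hne rfl
          · exact hnH (hM.1 p hp)
          · exact hnH (hHs _ _ vh1)
          · exact hnH (hHs _ _ (hM.1 p hp))
          · exact hne rfl
          · exact hnH (hHs _ _ vh2)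
          · exact hnH uh1
          · exact hnH uh2
          · exact hne (haug p hp u uU v vU uh1 vh2))
    refine C.colorable.mono ?_
    rw [Fintype.card_coe]
    exact (Finset.card_union_le _ _).trans (Nat.add_le_add_left Finset.card_image_le _)
  set ι := {x // x ∈ U'} ⊕ {p // p ∈ M}
  have hι : Fintype.card ι = U'.card + M.card := by
    simp [ι, Fintype.card_sum, Fintype.card_coe]
  set P : ι → Finset V := Sum.elim (fun x => {x.1}) (fun p => {hd p, tl (σ p)})
  set e := (Fintype.equivFinOfCardEq hι).symm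
  refine ⟨fun i => P (e i), fun i => ?_, fun i j hij => ?_⟩
  · show (P (e i)).Nonempty ∧ (G.induce (P (e i) : Set V)).Connected
    rcases e i with x | p <;> simp only [P, Sum.elim_inl, Sum.elim_inr]
    · refine ⟨Finset.singleton_nonempty _, ?_⟩
      rw [Finset.coe_singleton, SimpleGraph.induce_singleton_eq_top]
      exact SimpleGraph.connected_top
    · refine ⟨Finset.insert_nonempty _ _, ?_⟩
      rw [Finset.coe_insert, Finset.coe_singleton]
      exact G.induce_pair_connected_of_adj (hGH (hhdtl _ _) (hσ1 p))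
  have hne : e i ≠ e j := e.injective.ne hij
  have hUv : ∀ x : {x // x ∈ U'}, ∀ v ∈ verts M, x.1 ≠ v := fun x v hv h =>
    (hUmem x.1).1 (Finset.mem_sdiff.1 x.2).1 (h ▸ hv)
  show Disjoint (P (e i)) (P (e j)) ∧ ∃ u ∈ P (e i), ∃ v ∈ P (e j), G.Adj u v
  generalize e i = s at hne ⊢
  generalize e j = r at hne ⊢
  rcases s with x | p <;> rcases r with y | q <;> simp only [P, Sum.elim_inl, Sum.elim_inr]
  · have hxy : x.1 ≠ y.1 := fun h => hne (by rw [Subtype.ext h])
    exact ⟨by simp [Subtype.coe_inj.not.1 hxy], x.1, by simp, y.1, by simp,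
      hGH hxy (hUind _ (Finset.mem_sdiff.1 x.2).1 _ (Finset.mem_sdiff.1 y.2).1)⟩
  · have h1 := hUv x _ (hmemv q).1
    have h2 := hUv x _ (hmemv (σ q)).2
    exact ⟨by simp [h1, h2], x.1, by simp, tl (σ q), by simp, hGH h2 (htail _ _ x.2)⟩
  · have h1 := hUv y _ (hmemv p).1
    have h2 := hUv y _ (hmemv (σ p)).2
    exact ⟨by simp [h1, h2], tl (σ p), by simp, y.1, by simp, (hGH h2 (htail _ _ y.2)).symm⟩
  · have hpq : p ≠ q := fun h => hne (by rw [h])
    have d1 : hd p ≠ hd q := (hdist p q hpq).1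
    have d2 : hd p ≠ tl (σ q) := hhdtl _ _
    have d3 : tl (σ p) ≠ hd q := (hhdtl _ _).symm
    have d4 : tl (σ p) ≠ tl (σ q) := hinj2.ne (σ.injective.ne hpq)
    refine ⟨by simp [d1.symm, d2.symm, d3.symm, d4.symm], ?_⟩
    by_contra hcon
    push Not at hcon
    exact hσ2 p q hpq ⟨⟨d1, hcon _ (by simp) _ (by simp)⟩, ⟨d2, hcon _ (by simp) _ (by simp)⟩,
      ⟨d3, hcon _ (by simp) _ (by simp)⟩, ⟨d4, hcon _ (by simp) _ (by simp)⟩⟩

end P060
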