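import Mathlib

/-!
P060: graphs with few non-neighbours at each vertex and a large matching of non-edges.
-/

namespace P060

open Finset
open scoped Classical

variable {V : Type} [Fintype V]

/-- A set of disjoint pairs, each related by `R`. -/
def Pairs (R : V → V → Prop) (M : Finset (V × V)) : Prop :=
  (∀ p ∈ M, R p.1 p.2) ∧
    ∀ p ∈ M, ∀ q ∈ M, p ≠ q → p.1 ≠ q.1 ∧ p.1 ≠ q.2 ∧ p.2 ≠ q.1 ∧ p.2 ≠ q.2

/-- The vertices of the pairs. -/
noncomputable def verts (M : Finset (V × V)) : Finset V := M.image Prod.fst ∪ M.image Prod.snd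

theorem mem_verts {M : Finset (V × V)} {v : V} :
    v ∈ verts M ↔ ∃ p ∈ M, p.1 = v ∨ p.2 = v := by
  simp only [verts, Finset.mem_union, Finset.mem_image]
  constructor
  · rintro (⟨p, hp, e⟩ | ⟨p, hp, e⟩)
    · exact ⟨p, hp, Or.inl e⟩
    · exact ⟨p, hp, Or.inr e⟩
  · rintro ⟨p, hp, e | e⟩
    · exact Or.inl ⟨p, hp, e⟩
    · exact Or.inr ⟨p, hp, e⟩

theorem card_verts {R : V → V → Prop} (hR : ∀ a, ¬R a a) {M : Finset (V × V)} (hM : Pairs R M) :
    (verts M).card = 2 * M.card := by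
  have hne : ∀ p ∈ M, ∀ q ∈ M, p.1 ≠ q.2 := fun p hp q hq e => by
    by_cases h : p = q
    · exact hR q.2 (by have := hM.1 q hq; rwa [← h, e, h] at this)
    · exact (hM.2 p hp q hq h).2.1 e
  rw [verts, Finset.card_union_of_disjoint, Finset.card_image_of_injOn, Finset.card_image_of_injOn]
  · ring
  · exact fun p hp q hq e => by_contra fun h => (hM.2 p hp q hq h).2.2.2 e
  · exact fun p hp q hq e => by_contra fun h => (hM.2 p hp q hq h).1 e
  · rw [Finset.disjoint_left]
    intro v hv hv'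
    obtain ⟨p, hp, rfl⟩ := Finset.mem_image.1 hv
    obtain ⟨q, hq, e⟩ := Finset.mem_image.1 hv'
    exact hne p hp q hq e.symm

theorem Pairs.insert' {R : V → V → Prop} {M : Finset (V × V)} (hM : Pairs R M) {a b : V}
    (hab : R a b) (ha : a ∉ verts M) (hb : b ∉ verts M) : Pairs R (insert (a, b) M) := by
  refine ⟨fun p hp => ?_, fun p hp q hq hpq => ?_⟩
  · rcases Finset.mem_insert.1 hp with rfl | hp
    · exact hab
    · exact hM.1 p hp
  simp only [mem_verts, not_exists, not_and, not_or] at ha hb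
  rcases Finset.mem_insert.1 hp with rfl | hp' <;> rcases Finset.mem_insert.1 hq with rfl | hq'
  · exact absurd rfl hpq
  · exact ⟨Ne.symm (ha q hq').1, Ne.symm (ha q hq').2, Ne.symm (hb q hq').1, Ne.symm (hb q hq').2⟩
  · exact ⟨(ha p hp').1, (hb p hp').1, (ha p hp').2, (hb p hp').2⟩
  · exact hM.2 p hp' q hq' hpq

theorem Pairs.mono {R : V → V → Prop} {M N : Finset (V × V)} (hM : Pairs R M) (h : N ⊆ M) :
    Pairs R N :=
  ⟨fun p hp => hM.1 p (h hp), fun p hp q hq => hM.2 p (h hp) q (h hq)⟩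

/-- A dense symmetric relation on an even set has a perfect pairing. -/
theorem exists_perfect {R : V → V → Prop} (hR : ∀ a, ¬R a a) (hsym : ∀ a b, R a b → R b a)
    (T : Finset V) (heven : 2 ∣ T.card) (K : ℕ)
    (hK : ∀ a ∈ T, (T.filter fun c => ¬R a c).card ≤ K) (hT : 5 * K < T.card) :
    ∃ M : Finset (V × V), Pairs R M ∧ verts M = T := by
  obtain ⟨M, hM, hmax⟩ := (((univ : Finset (V × V)).powerset.filter
      fun M => Pairs R M ∧ verts M ⊆ T)).exists_max_image Finset.card
    ⟨∅, by simp [Pairs, verts]⟩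
  simp only [Finset.mem_filter, Finset.mem_powerset, Finset.subset_univ, true_and] at hM hmax
  obtain ⟨hP, hsub⟩ := hM
  refine ⟨M, hP, by_contra fun hne => ?_⟩
  have hcard := card_verts hR hP
  set F := T \ verts M with hF
  have hFc : F.card = T.card - 2 * M.card := by rw [hF, Finset.card_sdiff_of_subset hsub, hcard]
  have hle := Finset.card_le_card hsub
  have hFne : F.card ≠ 0 := fun h => hne (Finset.eq_of_subset_of_card_le hsub (by omega))
  obtain ⟨a, ha, b, hb, hab⟩ := Finset.one_lt_card.1 (show 1 < F.card by omega)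
  simp only [hF, Finset.mem_sdiff] at ha hb
  have hno : ∀ c ∈ F, ¬R a c := by
    intro c hc hac
    simp only [hF, Finset.mem_sdiff] at hc
    have hmem : (a, c) ∉ M := fun h => ha.2 (mem_verts.2 ⟨_, h, Or.inl rfl⟩)
    have h := hmax (insert (a, c) M) ⟨hP.insert' hac ha.2 hc.2, ?_⟩
    · rw [Finset.card_insert_of_notMem hmem] at h; omega
    intro v hv
    obtain ⟨q, hq, e⟩ := mem_verts.1 hv
    rcases Finset.mem_insert.1 hq with rfl | hq
    · rcases e with rfl | rfl
      exacts [ha.1, hc.1]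
    · exact hsub (mem_verts.2 ⟨q, hq, e⟩)
  have hFK : F.card ≤ K := (Finset.card_le_card fun c hc =>
    Finset.mem_filter.2 ⟨(Finset.mem_sdiff.1 hc).1, hno c hc⟩).trans (hK a ha.1)
  obtain ⟨p, hp, hpa, hpb⟩ : ∃ p ∈ M, R a p.1 ∧ R b p.2 := by
    by_contra hcon
    push Not at hcon
    have hbad : M ⊆ M.filter (fun p => ¬R a p.1) ∪ M.filter (fun p => ¬R b p.2) := fun p hp => by
      by_cases h : R a p.1
      · exact Finset.mem_union_right _ (Finset.mem_filter.2 ⟨hp, hcon p hp h⟩)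
      · exact Finset.mem_union_left _ (Finset.mem_filter.2 ⟨hp, h⟩)
    have h1 : (M.filter fun p => ¬R a p.1).card ≤ K := by
      refine le_trans (Finset.card_le_card_of_injOn Prod.fst ?_ ?_) (hK a ha.1)
      · intro p hp
        simp only [Finset.coe_filter, Set.mem_ofPred_eq] at hp ⊢
        exact ⟨hsub (mem_verts.2 ⟨p, hp.1, Or.inl rfl⟩), hp.2⟩
      · intro p hp q hq e
        simp only [Finset.coe_filter, Set.mem_ofPred_eq] at hp hq
        exact by_contra fun h => (hP.2 p hp.1 q hq.1 h).1 e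
    have h2 : (M.filter fun p => ¬R b p.2).card ≤ K := by
      refine le_trans (Finset.card_le_card_of_injOn Prod.snd ?_ ?_) (hK b hb.1)
      · intro p hp
        simp only [Finset.coe_filter, Set.mem_ofPred_eq] at hp ⊢
        exact ⟨hsub (mem_verts.2 ⟨p, hp.1, Or.inr rfl⟩), hp.2⟩
      · intro p hp q hq e
        simp only [Finset.coe_filter, Set.mem_ofPred_eq] at hp hq
        exact by_contra fun h => (hP.2 p hp.1 q hq.1 h).2.2.2 e
    have := (Finset.card_le_card hbad).trans (Finset.card_union_le _ _)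
    omega
  have hM0 : Pairs R (M.erase p) := hP.mono (Finset.erase_subset _ _)
  have hout : ∀ v, v ∉ verts M → v ∉ verts (M.erase p) := fun v hv h => by
    obtain ⟨q, hq, e⟩ := mem_verts.1 h
    exact hv (mem_verts.2 ⟨q, Finset.mem_of_mem_erase hq, e⟩)
  have hp1 : p.1 ∉ verts (M.erase p) := fun h => by
    obtain ⟨q, hq, e⟩ := mem_verts.1 h
    obtain ⟨hqp, hq⟩ := Finset.mem_erase.1 hq
    rcases e with e | e
    · exact (hP.2 q hq p hp hqp).1 e
    · exact (hP.2 q hq p hp hqp).2.2.1 e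
  have hp2 : p.2 ∉ verts (M.erase p) := fun h => by
    obtain ⟨q, hq, e⟩ := mem_verts.1 h
    obtain ⟨hqp, hq⟩ := Finset.mem_erase.1 hq
    rcases e with e | e
    · exact (hP.2 q hq p hp hqp).2.1 e
    · exact (hP.2 q hq p hp hqp).2.2.2 e
  set M1 := insert (a, p.1) (M.erase p)
  have hM1 : Pairs R M1 := hM0.insert' hpa (hout a ha.2) hp1
  have hmemv : ∀ v, v ∉ verts (M.erase p) → v ≠ a → v ≠ p.1 → v ∉ verts M1 := by
    intro v hv h1 h2 h
    obtain ⟨q, hq, e⟩ := mem_verts.1 h
    rcases Finset.mem_insert.1 hq with rfl | hq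
    · exact e.elim (fun e => h1 e.symm) (fun e => h2 e.symm)
    · exact hv (mem_verts.2 ⟨q, hq, e⟩)
  have hpne : p.2 ≠ p.1 := fun e => hR p.1 (by have := hP.1 p hp; rwa [e] at this)
  have hpv : p.1 ∈ verts M ∧ p.2 ∈ verts M :=
    ⟨mem_verts.2 ⟨p, hp, Or.inl rfl⟩, mem_verts.2 ⟨p, hp, Or.inr rfl⟩⟩
  have hbM1 : b ∉ verts M1 := hmemv b (hout b hb.2) (Ne.symm hab) fun e => hb.2 (e ▸ hpv.1)
  have hpM1 : p.2 ∉ verts M1 := hmemv p.2 hp2 (fun e => ha.2 (e ▸ hpv.2)) hpne
  have hM2 : Pairs R (insert (b, p.2) M1) := hM1.insert' hpb hbM1 hpM1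
  have hsub2 : verts (insert (b, p.2) M1) ⊆ T := by
    intro v hv
    obtain ⟨q, hq, e⟩ := mem_verts.1 hv
    simp only [M1, Finset.mem_insert] at hq
    rcases hq with rfl | rfl | hq
    · rcases e with rfl | rfl
      exacts [hb.1, hsub hpv.2]
    · rcases e with rfl | rfl
      exacts [ha.1, hsub hpv.1]
    · exact hsub (mem_verts.2 ⟨q, Finset.mem_of_mem_erase hq, e⟩)
  have h1 : (a, p.1) ∉ M.erase p := fun h => hout a ha.2 (mem_verts.2 ⟨_, h, Or.inl rfl⟩)
  have h2 : (b, p.2) ∉ M1 := fun h => hbM1 (mem_verts.2 ⟨_, h, Or.inl rfl⟩)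
  have := hmax _ ⟨hM2, hsub2⟩
  rw [Finset.card_insert_of_notMem h2, show M1.card = (M.erase p).card + 1 from
    Finset.card_insert_of_notMem h1, Finset.card_erase_of_mem hp] at this
  have := Finset.card_pos.2 ⟨p, hp⟩
  omega

/-- A clique minor on as many parts as colours. -/
theorem hadwiger_dense (G : SimpleGraph V) (Δ : ℕ)
    (hdeg : ∀ v, (univ.filter fun u => u ≠ v ∧ ¬G.Adj v u).card ≤ Δ)
    (h : (∃ (k : ℕ) (a b : Fin k → V), Function.Injective (Sum.elim a b) ∧
        (∀ i, ¬G.Adj (a i) (b i)) ∧ 9 * Δ ^ 2 ≤ k) ∨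
      ((∀ v, ∃ u, u ≠ v ∧ ¬G.Adj v u) ∧ 36 * Δ ^ 3 ≤ Fintype.card V)) :
    ∃ t : ℕ, G.Colorable t ∧ ∃ B : Fin t → Finset V,
      (∀ i, (B i).Nonempty ∧ (G.induce (B i : Set V)).Connected) ∧
      ∀ i j, i ≠ j → Disjoint (B i) (B j) ∧ ∃ u ∈ B i, ∃ v ∈ B j, G.Adj u v := by
  set H : V → V → Prop := fun u v => u ≠ v ∧ ¬G.Adj u v with hH
  have hHi : ∀ a, ¬H a a := fun a h => h.1 rfl
  have hHs : ∀ {u v}, H u v → H v u := fun h => ⟨h.1.symm, fun e => h.2 e.symm⟩
  have hGH : ∀ {u v}, u ≠ v → ¬H u v → G.Adj u v := fun hne h => by_contra fun e => h ⟨hne, e⟩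
  set N : V → Finset V := fun v => univ.filter (H v) with hN
  have hNc : ∀ v, (N v).card ≤ Δ := fun v => by
    refine le_trans (le_of_eq (congrArg Finset.card ?_)) (hdeg v)
    ext u
    simp only [hN, hH, Finset.mem_filter, Finset.mem_univ, true_and]
    exact ⟨fun h => ⟨h.1.symm, h.2⟩, fun h => ⟨h.1.symm, h.2⟩⟩
  obtain ⟨M, hM, hmax⟩ := (((univ : Finset (V × V)).powerset.filter (Pairs H))).exists_max_image
    Finset.card ⟨∅, by simp [Pairs]⟩
  simp only [Finset.mem_filter, Finset.mem_powerset, Finset.subset_univ, true_and] at hM hmax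
  set U := univ \ verts M with hU
  have hUind : ∀ u ∈ U, ∀ v ∈ U, ¬H u v := by
    intro u hu v hv hh
    simp only [hU, Finset.mem_sdiff, Finset.mem_univ, true_and] at hu hv
    have := hmax _ (hM.insert' hh hu hv)
    rw [Finset.card_insert_of_notMem fun h => hu (mem_verts.2 ⟨_, h, Or.inl rfl⟩)] at this
    omega
  have hverts := card_verts hHi hM
  have hUc : U.card + 2 * M.card = Fintype.card V := by
    rw [hU, Finset.card_sdiff_of_subset (Finset.subset_univ _), hverts, Finset.card_univ]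
    have := Finset.card_le_univ (verts M)
    omega
  have hnu : 9 * Δ ^ 2 ≤ M.card := by
    rcases h with ⟨k, a, b, hinj, hab, hk⟩ | ⟨hno, hn⟩
    · refine hk.trans ?_
      have hne : ∀ i j, a i ≠ b j := fun i j e => by
        have := @hinj (Sum.inl i) (Sum.inr j) e
        simp at this
      set f : Fin k → V × V := fun i => (a i, b i) with hf
      have hfi : Function.Injective f := fun i j e => by
        have := @hinj (Sum.inl i) (Sum.inl j) (congrArg Prod.fst e)
        simpa using this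
      have hP : Pairs H (univ.image f) := by
        refine ⟨fun p hp => ?_, fun p hp q hq hpq => ?_⟩
        · obtain ⟨i, -, rfl⟩ := Finset.mem_image.1 hp
          exact ⟨hne i i, hab i⟩
        · obtain ⟨i, -, rfl⟩ := Finset.mem_image.1 hp
          obtain ⟨j, -, rfl⟩ := Finset.mem_image.1 hq
          refine ⟨fun e => hpq ?_, hne i j, fun e => hne j i e.symm, fun e => hpq ?_⟩
          · rw [show i = j by simpa using @hinj (Sum.inl i) (Sum.inl j) e]
          · rw [show i = j by simpa using @hinj (Sum.inr i) (Sum.inr j) e]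
      have := hmax _ hP
      rwa [Finset.card_image_of_injective _ hfi, Finset.card_univ, Fintype.card_fin] at this
    · rcases Nat.eq_zero_or_pos Δ with rfl | hΔ
      · simp
      have hUN : U ⊆ (verts M).biUnion N := by
        intro u hu
        obtain ⟨v, hne, hv⟩ := hno u
        have hh : H v u := ⟨hne, fun e => hv e.symm⟩
        refine Finset.mem_biUnion.2 ⟨v, by_contra fun h => ?_, Finset.mem_filter.2 ⟨Finset.mem_univ _, hh⟩⟩
        exact hUind v (by simp [hU, h]) u hu hh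
      have h1 := (Finset.card_le_card hUN).trans (Finset.card_biUnion_le_card_mul _ _ Δ fun v _ => hNc v)
      rw [hverts] at h1
      have h2 : 36 * Δ ^ 3 ≤ 4 * (M.card * Δ) := by nlinarith
      nlinarith
  set R : V → V → Prop := fun a b => a ≠ b ∧ ¬H a b ∧ ∀ y, ¬(H y a ∧ H y b) with hR
  obtain ⟨Q, hQ, hQv⟩ : ∃ Q, Pairs R Q ∧ verts Q = verts M := by
    rcases Nat.eq_zero_or_pos M.card with h0 | hpos
    · exact ⟨∅, by simp [Pairs], by rw [Finset.card_eq_zero.1 h0]⟩
    have hΔ : 1 ≤ Δ := by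
      obtain ⟨p, hp⟩ := Finset.card_pos.1 hpos
      exact le_trans (Finset.card_pos.2 ⟨p.2, Finset.mem_filter.2 ⟨Finset.mem_univ _, hM.1 p hp⟩⟩)
        (hNc p.1)
    refine exists_perfect (fun a h => h.1 rfl)
      (fun a b h => ⟨h.1.symm, fun e => h.2.1 (hHs e), fun y hy => h.2.2 y hy.symm⟩)
      (verts M) ⟨M.card, hverts⟩ (1 + Δ + Δ * Δ) (fun a _ => ?_) ?_
    · have hsub : (verts M).filter (fun c => ¬R a c) ⊆ {a} ∪ N a ∪ (N a).biUnion N := by
        intro c hc
        have hc := (Finset.mem_filter.1 hc).2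
        by_contra hcon
        simp only [Finset.mem_union, Finset.mem_singleton, Finset.mem_biUnion, hN,
          Finset.mem_filter, Finset.mem_univ, true_and, not_or, not_exists, not_and] at hcon
        exact hc ⟨fun e => hcon.1.1 e.symm, hcon.1.2, fun y hy => hcon.2 y (hHs hy.1) hy.2⟩
      have h0 := Finset.card_le_card hsub
      have h4 := Finset.card_union_le ({a} ∪ N a) ((N a).biUnion N)
      have h1 := (Finset.card_union_le {a} (N a)).trans (Nat.add_le_add_left (hNc a) _)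
      have h2 := Finset.card_biUnion_le_card_mul (N a) N Δ fun v _ => hNc v
      have h3 := Nat.mul_le_mul_right Δ (hNc a)
      simp only [Finset.card_singleton] at h1
      have hfin : ((verts M).filter fun c => ¬R a c).card ≤ 1 + Δ + Δ * Δ := by omega
      convert hfin
    · rw [hverts]; nlinarith
  have hQc : Q.card = M.card := by
    have := card_verts (fun a (h : R a a) => h.1 rfl) hQ
    rw [hQv, hverts] at this
    omega
  refine ⟨U.card + M.card, ?_, ?_⟩
  · -- colouring by the non-edges of `M`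
    set col : V → V := fun v => if h : ∃ p ∈ M, p.2 = v then h.choose.1 else v with hcol
    have hcs : ∀ v, (∃ p ∈ M, p.1 = col v ∧ p.2 = v) ∨ (col v = v ∧ ∀ p ∈ M, p.2 ≠ v) := by
      intro v
      simp only [hcol]
      split_ifs with h
      · exact Or.inl ⟨h.choose, h.choose_spec.1, rfl, h.choose_spec.2⟩
      · exact Or.inr ⟨rfl, by push Not at h; exact h⟩
    have himg : ∀ v, col v ∈ U ∪ M.image Prod.fst := by
      intro v
      rcases hcs v with ⟨p, hp, h1, -⟩ | ⟨h1, h2⟩
      · exact Finset.mem_union_right _ (Finset.mem_image.2 ⟨p, hp, h1⟩)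
      · rw [h1]
        by_cases hv : v ∈ verts M
        · obtain ⟨p, hp, e | e⟩ := mem_verts.1 hv
          · exact Finset.mem_union_right _ (Finset.mem_image.2 ⟨p, hp, e⟩)
          · exact absurd e (h2 p hp)
        · exact Finset.mem_union_left _ (by simp [hU, hv])
    let C : G.Coloring {x // x ∈ U ∪ M.image Prod.fst} :=
      SimpleGraph.Coloring.mk (fun v => ⟨col v, himg v⟩) (fun {u v} huv e => by
        have e' : col u = col v := congrArg Subtype.val e
        rcases hcs u with ⟨p, hp, p1, p2⟩ | ⟨u1, u2⟩ <;>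
          rcases hcs v with ⟨q, hq, q1, q2⟩ | ⟨v1, v2⟩
        · by_cases hpq : p = q
          · exact huv.ne (by rw [← p2, ← q2, hpq])
          · exact (hM.2 p hp q hq hpq).1 (by rw [p1, q1, e'])
        · exact (hM.1 p hp).2 (by rw [p1, p2, e', v1]; exact huv.symm)
        · exact (hM.1 q hq).2 (by rw [q1, q2, ← e', u1]; exact huv)
        · exact huv.ne (by rw [← u1, ← v1, e']))
    refine C.colorable.mono ?_
    rw [Fintype.card_coe]
    exact (Finset.card_union_le _ _).trans (Nat.add_le_add_left Finset.card_image_le _)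
  set ι := {x // x ∈ U} ⊕ {p // p ∈ Q}
  have hι : Fintype.card ι = U.card + M.card := by
    simp [ι, Fintype.card_sum, Fintype.card_coe, hQc]
  set P : ι → Finset V := Sum.elim (fun x => {x.1}) (fun p => {p.1.1, p.1.2})
  set e := (Fintype.equivFinOfCardEq hι).symm
  refine ⟨fun i => P (e i), fun i => ?_, fun i j hij => ?_⟩
  · show (P (e i)).Nonempty ∧ (G.induce (P (e i) : Set V)).Connected
    rcases e i with x | p <;> simp only [P, Sum.elim_inl, Sum.elim_inr]
    · refine ⟨Finset.singleton_nonempty _, ?_⟩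
      rw [Finset.coe_singleton]
      rw [SimpleGraph.induce_singleton_eq_top]
      exact SimpleGraph.connected_top
    · refine ⟨Finset.insert_nonempty _ _, ?_⟩
      rw [Finset.coe_insert, Finset.coe_singleton]
      exact G.induce_pair_connected_of_adj (hGH (hQ.1 _ p.2).1 (hQ.1 _ p.2).2.1)
  have hne : e i ≠ e j := e.injective.ne hij
  have hUQ : ∀ x : {x // x ∈ U}, ∀ p : {p // p ∈ Q}, x.1 ≠ p.1.1 ∧ x.1 ≠ p.1.2 := by
    intro x p
    have hx := x.2
    simp only [hU, Finset.mem_sdiff, Finset.mem_univ, true_and] at hx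
    rw [← hQv] at hx
    exact ⟨fun e => hx (mem_verts.2 ⟨_, p.2, Or.inl e.symm⟩),
      fun e => hx (mem_verts.2 ⟨_, p.2, Or.inr e.symm⟩)⟩
  have hxp : ∀ x : {x // x ∈ U}, ∀ p : {p // p ∈ Q}, G.Adj x.1 p.1.1 ∨ G.Adj x.1 p.1.2 := by
    intro x p
    by_contra hcon
    push Not at hcon
    exact (hQ.1 _ p.2).2.2 x.1 ⟨⟨(hUQ x p).1, hcon.1⟩, ⟨(hUQ x p).2, hcon.2⟩⟩
  show Disjoint (P (e i)) (P (e j)) ∧ ∃ u ∈ P (e i), ∃ v ∈ P (e j), G.Adj u v
  generalize e i = s at hne ⊢
  generalize e j = r at hne ⊢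
  rcases s with x | p <;> rcases r with y | q <;> simp only [P, Sum.elim_inl, Sum.elim_inr]
  · have hxy : x.1 ≠ y.1 := fun h => hne (by rw [Subtype.ext h])
    exact ⟨by simp [Subtype.coe_inj.not.1 hxy], x.1, by simp, y.1, by simp, hGH hxy (hUind _ x.2 _ y.2)⟩
  · refine ⟨by simp [(hUQ x q).1, (hUQ x q).2], x.1, by simp, ?_⟩
    rcases hxp x q with h | h
    exacts [⟨_, by simp, h⟩, ⟨_, by simp, h⟩]
  · refine ⟨by simp [(hUQ y p).1, (hUQ y p).2], ?_⟩
    rcases hxp y p with h | h
    exacts [⟨_, by simp, y.1, by simp, h.symm⟩, ⟨_, by simp, y.1, by simp, h.symm⟩]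
  · have hpq : p.1 ≠ q.1 := fun h => hne (by rw [Subtype.ext h])
    obtain ⟨d1, d2, d3, d4⟩ := hQ.2 _ p.2 _ q.2 hpq
    refine ⟨by simp [d1, d2, d3, d4, d1.symm, d2.symm, d3.symm, d4.symm], ?_⟩
    by_contra hcon
    push Not at hcon
    exact (hQ.1 _ q.2).2.2 p.1.1 ⟨⟨d1, hcon _ (by simp) _ (by simp)⟩, ⟨d2, hcon _ (by simp) _ (by simp)⟩⟩

end P060
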