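import Mathlib

/-!
P060: a local lemma for random permutations, with events given by one or two cells.
-/

namespace P060

open Finset
open scoped Classical

variable {ι : Type} [Fintype ι] [DecidableEq ι]

/-- An event: two cells, equal for an event of one cell. -/
abbrev Ev (ι : Type) := (ι × ι) × (ι × ι)

/-- The event holds for the permutation. -/
def Holds (σ : Equiv.Perm ι) (e : Ev ι) : Prop := σ e.1.1 = e.1.2 ∧ σ e.2.1 = e.2.2

/-- One cell, or two cells in different rows and columns. -/
def ValidEv (e : Ev ι) : Prop := e.1 = e.2 ∨ (e.1.1 ≠ e.2.1 ∧ e.1.2 ≠ e.2.2)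

/-- Two events share a row or a column. -/
def Clash (e f : Ev ι) : Prop :=
  (f.1.1 = e.1.1 ∨ f.2.1 = e.1.1 ∨ f.1.1 = e.2.1 ∨ f.2.1 = e.2.1) ∨
    (f.1.2 = e.1.2 ∨ f.2.2 = e.1.2 ∨ f.1.2 = e.2.2 ∨ f.2.2 = e.2.2)

/-- The probability of the event times `ν (ν - 1)`. -/
noncomputable def wt (e : Ev ι) : ℕ := if e.1 = e.2 then Fintype.card ι - 1 else 1

/-- The permutations avoiding all events of `S`. -/
noncomputable def avoid (S : Finset (Ev ι)) : Finset (Equiv.Perm ι) :=
  univ.filter fun σ => ∀ f ∈ S, ¬Holds σ f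

theorem mem_avoid {S : Finset (Ev ι)} {σ : Equiv.Perm ι} :
    σ ∈ avoid S ↔ ∀ f ∈ S, ¬Holds σ f := by
  simp [avoid]

/-- Events sharing no cell line with `e` do not raise its conditional probability. -/
theorem card_holds_le (e : Ev ι) (he : ValidEv e) (S : Finset (Ev ι))
    (hS : ∀ f ∈ S, ¬Clash e f) :
    ((avoid S).filter fun σ => Holds σ e).card * (Fintype.card ι * (Fintype.card ι - 1)) ≤
      wt e * (avoid S).card := by
  set A := (avoid S).filter fun σ => Holds σ e with hA
  obtain ⟨⟨i, j⟩, ⟨k, l⟩⟩ := e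
  have key : ∀ τ : Equiv.Perm ι,
      (∀ x, x ≠ j → x ≠ l → τ x ≠ j → τ x ≠ l → τ x = x) →
      ∀ σ ∈ A, τ * σ ∈ avoid S := by
    intro τ hτ σ hσ
    replace hσ := Finset.mem_filter.1 hσ
    simp only [mem_avoid, Holds] at hσ ⊢
    intro f hf hh
    have hc := hS f hf
    simp only [Clash, not_or] at hc
    obtain ⟨⟨r1, r2, r3, r4⟩, c1, c2, c3, c4⟩ := hc
    have h : ∀ r c, r ≠ i → r ≠ k → c ≠ j → c ≠ l → (τ * σ) r = c → σ r = c := by
      intro r c hri hrk hcj hcl hrc
      simp only [Equiv.Perm.mul_apply] at hrc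
      rw [← hrc]
      refine (hτ _ (fun h => hri (σ.injective (h.trans hσ.2.1.symm)))
        (fun h => hrk (σ.injective (h.trans hσ.2.2.symm))) ?_ ?_).symm
      · rwa [hrc]
      · rwa [hrc]
    exact hσ.1 f hf ⟨h _ _ r1 r3 c1 c3 hh.1, h _ _ r2 r4 c2 c4 hh.2⟩
  by_cases h1 : (i, j) = (k, l)
  · obtain ⟨rfl, rfl⟩ := Prod.mk.inj h1
    have hsum : ∀ j' : ι, A.card ≤ ((avoid S).filter fun σ => σ i = j').card := by
      intro j'
      refine Finset.card_le_card_of_injOn (fun σ => Equiv.swap j j' * σ) (fun σ hσ => ?_)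
        (fun σ _ σ' _ h => mul_left_cancel h)
      refine Finset.mem_coe.2 (Finset.mem_filter.2 ⟨key _ ?_ σ hσ, ?_⟩)
      · intro x h1 _ h3 _
        simp only [Equiv.swap_apply_def] at h3 ⊢
        split_ifs at h3 ⊢ <;> simp_all
      · have := (Finset.mem_filter.1 hσ).2.1
        simp only at this
        simp [this]
    have h := Finset.sum_le_sum (s := (univ : Finset ι)) fun j' _ => hsum j'
    rw [← Finset.card_eq_sum_card_fiberwise (fun _ _ => Finset.mem_univ _), Finset.sum_const,
      smul_eq_mul, Finset.card_univ] at h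
    have hw : wt ((i, j), (i, j)) = Fintype.card ι - 1 := by simp [wt]
    rw [hw]
    calc A.card * (Fintype.card ι * (Fintype.card ι - 1))
        = (Fintype.card ι - 1) * (Fintype.card ι * A.card) := by ring
      _ ≤ (Fintype.card ι - 1) * (avoid S).card := Nat.mul_le_mul_left _ h
  · obtain ⟨hik, hjl⟩ : i ≠ k ∧ j ≠ l := he.resolve_left h1
    have hsum : ∀ t ∈ (univ : Finset ι).offDiag,
        A.card ≤ ((avoid S).filter fun σ => (σ i, σ k) = t).card := by
      intro t ht
      obtain ⟨j', l'⟩ := t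
      have hne : j' ≠ l' := (Finset.mem_offDiag.1 ht).2.2
      set τ₁ := Equiv.swap j j' with hτ₁
      refine Finset.card_le_card_of_injOn (fun σ => Equiv.swap (τ₁ l) l' * τ₁ * σ)
        (fun σ hσ => ?_) (fun σ _ σ' _ h => mul_left_cancel h)
      refine Finset.mem_coe.2 (Finset.mem_filter.2 ⟨key _ ?_ σ hσ, ?_⟩)
      · intro x h1 h2 h3 h4
        simp only [hτ₁, Equiv.Perm.mul_apply, Equiv.swap_apply_def] at h3 h4 ⊢
        split_ifs at h3 h4 ⊢ <;> simp_all
      · obtain ⟨hi, hk⟩ := (Finset.mem_filter.1 hσ).2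
        simp only at hi hk
        simp only [Equiv.Perm.mul_apply, hi, hk, hτ₁, Equiv.swap_apply_left, Prod.mk.injEq]
        refine ⟨Equiv.swap_apply_of_ne_of_ne ?_ hne, trivial⟩
        intro h
        exact hjl ((Equiv.swap j j').injective ((Equiv.swap_apply_left j j').trans h))
    have h := Finset.sum_le_sum hsum
    rw [← Finset.card_eq_sum_card_fiberwise
      (fun σ _ => Finset.mem_offDiag.2 ⟨Finset.mem_univ _, Finset.mem_univ _, σ.injective.ne hik⟩),
      Finset.sum_const, smul_eq_mul, Finset.offDiag_card, Finset.card_univ] at h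
    have hw : wt ((i, j), (k, l)) = 1 := by simp only [wt, if_neg h1]
    rw [hw, one_mul]
    calc A.card * (Fintype.card ι * (Fintype.card ι - 1))
        = (Fintype.card ι * Fintype.card ι - Fintype.card ι) * A.card := by
          rw [Nat.mul_sub_one]; ring
      _ ≤ (avoid S).card := h

/-- The local lemma. -/
theorem exists_avoid (E : Finset (Ev ι)) (hv : ∀ e ∈ E, ValidEv e)
    (hsum : ∀ e ∈ E, 4 * ∑ f ∈ E.filter (Clash e), wt f ≤
      Fintype.card ι * (Fintype.card ι - 1))
    (hpos : ∀ e ∈ E, 2 * wt e < Fintype.card ι * (Fintype.card ι - 1)) :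
    ∃ σ : Equiv.Perm ι, ∀ e ∈ E, ¬Holds σ e := by
  set P := Fintype.card ι * (Fintype.card ι - 1) with hP
  have main : ∀ n : ℕ, ∀ S ⊆ E, S.card ≤ n → ∀ e ∈ E, e ∉ S →
      ((avoid S).filter fun σ => Holds σ e).card * P ≤ 2 * wt e * (avoid S).card := by
    intro n
    induction n with
    | zero =>
      intro S _ hS e he _
      have h := card_holds_le e (hv e he) S (fun f hf => absurd hf (by
        rw [Finset.card_eq_zero.1 (Nat.le_zero.1 hS)]; simp))
      rw [← hP] at h
      linarith [Nat.zero_le (wt e * (avoid S).card)]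
    | succ n ih =>
      intro S hSE hS e he heS
      set S₁ := S.filter (Clash e) with hS₁
      set S₂ := S.filter fun f => ¬Clash e f with hS₂
      have hle := card_holds_le e (hv e he) S₂ fun f hf => (Finset.mem_filter.1 hf).2
      rw [← hP] at hle
      have hsub : (avoid S).filter (fun σ => Holds σ e) ⊆ (avoid S₂).filter fun σ => Holds σ e :=
        Finset.filter_subset_filter _ fun σ hσ => mem_avoid.2 fun f hf =>
          mem_avoid.1 hσ f (Finset.mem_filter.1 hf).1
      have h0 := Nat.mul_le_mul_right P (Finset.card_le_card hsub)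
      rcases S₁.eq_empty_or_nonempty with h1 | h1
      · have hS2 : S₂ = S := Finset.filter_true_of_mem fun f hf hc => by
          simpa [h1] using (show f ∈ S₁ from Finset.mem_filter.2 ⟨hf, hc⟩)
        rw [hS2] at hle
        linarith [Nat.zero_le (wt e * (avoid S).card)]
      have hc2 : S₂.card ≤ n := by
        have h := Finset.card_filter_add_card_filter_not (Clash e) (s := S)
        have := Finset.card_pos.2 h1
        simp only [← hS₁, ← hS₂] at h
        omega
      have hcov : avoid S₂ ⊆ avoid S ∪ S₁.biUnion fun f => (avoid S₂).filter fun σ => Holds σ f := by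
        intro σ hσ
        by_cases h : σ ∈ avoid S
        · exact Finset.mem_union_left _ h
        · simp only [mem_avoid, not_forall, not_not] at h
          obtain ⟨f, hf, hh⟩ := h
          refine Finset.mem_union_right _ (Finset.mem_biUnion.2 ⟨f, ?_, Finset.mem_filter.2 ⟨hσ, hh⟩⟩)
          exact Finset.mem_filter.2 ⟨hf, by_contra fun hc =>
            mem_avoid.1 hσ f (Finset.mem_filter.2 ⟨hf, hc⟩) hh⟩
      have h2 := Nat.mul_le_mul_right P ((Finset.card_le_card hcov).trans ((Finset.card_union_le _ _).trans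
        (Nat.add_le_add_left Finset.card_biUnion_le _)))
      rw [add_mul, Finset.sum_mul] at h2
      have h3 : ∑ f ∈ S₁, ((avoid S₂).filter fun σ => Holds σ f).card * P ≤
          ∑ f ∈ S₁, 2 * wt f * (avoid S₂).card := Finset.sum_le_sum fun f hf =>
        ih S₂ ((Finset.filter_subset _ _).trans hSE) hc2 f (hSE (Finset.mem_filter.1 hf).1)
          (fun h => (Finset.mem_filter.1 h).2 (Finset.mem_filter.1 hf).2)
      rw [← Finset.sum_mul] at h2
      rw [← Finset.sum_mul, ← Finset.sum_mul, ← Finset.mul_sum] at h3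
      have h4 : 4 * ∑ f ∈ S₁, wt f ≤ P := le_trans (Nat.mul_le_mul_left 4
        (Finset.sum_le_sum_of_subset (Finset.filter_subset_filter _ hSE))) (hsum e he)
      have h5 := Nat.mul_le_mul_right (avoid S₂).card h4
      have h6 : (avoid S₂).card * P ≤ 2 * ((avoid S).card * P) := by
        rw [mul_comm P] at h5
        linarith
      rcases Nat.eq_zero_or_pos P with hP0 | hP0
      · rw [hP0, mul_zero]; exact Nat.zero_le _
      have h7 : (avoid S₂).card ≤ 2 * (avoid S).card :=
        Nat.le_of_mul_le_mul_right (by linarith) hP0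
      have h8 := Nat.mul_le_mul_left (wt e) h7
      linarith
  suffices h : ∀ S ⊆ E, 0 < (avoid S).card by
    obtain ⟨σ, hσ⟩ := Finset.card_pos.1 (h E Finset.Subset.rfl)
    exact ⟨σ, mem_avoid.1 hσ⟩
  intro S
  induction S using Finset.induction_on with
  | empty => exact fun _ => Finset.card_pos.2 ⟨1, by simp [avoid]⟩
  | insert e S heS ih =>
    intro hsub
    rw [Finset.insert_subset_iff] at hsub
    have h0 := ih hsub.2
    have h1 := main S.card S hsub.2 le_rfl e hsub.1 heS
    by_contra hz
    have hall : (avoid S).filter (fun σ => Holds σ e) = avoid S :=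
      Finset.filter_true_of_mem fun σ hσ => by_contra fun hh => hz (Finset.card_pos.2 ⟨σ, by
        rw [mem_avoid] at hσ ⊢
        intro f hf
        rcases Finset.mem_insert.1 hf with rfl | hf
        exacts [hh, hσ f hf]⟩)
    rw [hall] at h1
    have h2 := Nat.mul_lt_mul_of_pos_left (hpos e hsub.1) h0
    linarith

end P060
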